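import Vale.Agent.P315.MathlibUsed
import Vale.Agent.P315.AlphaDefs

set_option linter.all false

section

namespace Vale.Agent.P315

/-- alignments of two strings with their cost -/
inductive Aln {α : Type*} : List α → List α → ℕ → Prop
  | nil : Aln [] [] 0
  | del {x y : List α} {k : ℕ} (a : α) : Aln x y k → Aln (a :: x) y (k + 1)
  | ins {x y : List α} {k : ℕ} (b : α) : Aln x y k → Aln x (b :: y) (k + 1)
  | sub {x y : List α} {k : ℕ} (a b : α) : Aln x y k → Aln (a :: x) (b :: y) (k + 1)
  | eq {x y : List α} {k : ℕ} (a : α) : Aln x y k → Aln (a :: x) (a :: y) k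

variable {α β : Type*}

theorem Aln.refl (x : List α) : Aln x x 0 := by
  induction x with
  | nil => exact Aln.nil
  | cons a x ih => exact Aln.eq a ih

theorem Aln.insert_right {x y : List α} {k : ℕ} (h : Aln x y k) :
    ∀ (u v : List α) (a : α), y = u ++ v → ∃ k' ≤ k + 1, Aln x (u ++ a :: v) k' := by
  induction h with
  | nil =>
    intro u v a h
    have h1 : u = [] ∧ v = [] := by simpa using h.symm
    obtain ⟨rfl, rfl⟩ := h1
    exact ⟨1, by simp, Aln.ins a Aln.nil⟩
  | @del x y k c h ih =>
    intro u v a hu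
    obtain ⟨k', hk, h'⟩ := ih u v a hu
    exact ⟨k' + 1, by omega, Aln.del c h'⟩
  | @ins x y k c h ih =>
    intro u v a hu
    cases u with
    | nil =>
      simp only [List.nil_append] at hu ⊢
      subst hu
      exact ⟨k + 1 + 1, by omega, Aln.ins a (Aln.ins c h)⟩
    | cons b u =>
      simp only [List.cons_append, List.cons.injEq] at hu
      obtain ⟨rfl, hu⟩ := hu
      obtain ⟨k', hk, h'⟩ := ih u v a hu
      exact ⟨k' + 1, by omega, Aln.ins c h'⟩
  | @sub x y k c d h ih =>
    intro u v a hu
    cases u with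
    | nil =>
      simp only [List.nil_append] at hu ⊢
      subst hu
      exact ⟨k + 1 + 1, by omega, Aln.ins a (Aln.sub c d h)⟩
    | cons b u =>
      simp only [List.cons_append, List.cons.injEq] at hu
      obtain ⟨rfl, hu⟩ := hu
      obtain ⟨k', hk, h'⟩ := ih u v a hu
      exact ⟨k' + 1, by omega, Aln.sub c d h'⟩
  | @eq x y k c h ih =>
    intro u v a hu
    cases u with
    | nil =>
      simp only [List.nil_append] at hu ⊢
      subst hu
      exact ⟨k + 1, by omega, Aln.ins a (Aln.eq c h)⟩
    | cons b u =>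
      simp only [List.cons_append, List.cons.injEq] at hu
      obtain ⟨rfl, hu⟩ := hu
      obtain ⟨k', hk, h'⟩ := ih u v a hu
      exact ⟨k', by omega, Aln.eq c h'⟩

theorem Aln.delete_right {x y : List α} {k : ℕ} (h : Aln x y k) :
    ∀ (u v : List α) (a : α), y = u ++ a :: v → ∃ k' ≤ k + 1, Aln x (u ++ v) k' := by
  induction h with
  | nil =>
    intro u v a h
    simp at h
  | @del x y k c h ih =>
    intro u v a hu
    obtain ⟨k', hk, h'⟩ := ih u v a hu
    exact ⟨k' + 1, by omega, Aln.del c h'⟩
  | @ins x y k c h ih =>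
    intro u v a hu
    cases u with
    | nil =>
      simp only [List.nil_append, List.cons.injEq] at hu ⊢
      obtain ⟨rfl, rfl⟩ := hu
      exact ⟨k, by omega, h⟩
    | cons b u =>
      simp only [List.cons_append, List.cons.injEq] at hu
      obtain ⟨rfl, hu⟩ := hu
      obtain ⟨k', hk, h'⟩ := ih u v a hu
      exact ⟨k' + 1, by omega, Aln.ins c h'⟩
  | @sub x y k c d h ih =>
    intro u v a hu
    cases u with
    | nil =>
      simp only [List.nil_append, List.cons.injEq] at hu ⊢
      obtain ⟨rfl, rfl⟩ := hu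
      exact ⟨k + 1, by omega, Aln.del c h⟩
    | cons b u =>
      simp only [List.cons_append, List.cons.injEq] at hu
      obtain ⟨rfl, hu⟩ := hu
      obtain ⟨k', hk, h'⟩ := ih u v a hu
      exact ⟨k' + 1, by omega, Aln.sub c d h'⟩
  | @eq x y k c h ih =>
    intro u v a hu
    cases u with
    | nil =>
      simp only [List.nil_append, List.cons.injEq] at hu ⊢
      obtain ⟨rfl, rfl⟩ := hu
      exact ⟨k + 1, by omega, Aln.del c h⟩
    | cons b u =>
      simp only [List.cons_append, List.cons.injEq] at hu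
      obtain ⟨rfl, hu⟩ := hu
      obtain ⟨k', hk, h'⟩ := ih u v a hu
      exact ⟨k', by omega, Aln.eq c h'⟩

theorem Aln.subst_right {x y : List α} {k : ℕ} (h : Aln x y k) :
    ∀ (u v : List α) (a b : α), y = u ++ a :: v → ∃ k' ≤ k + 1, Aln x (u ++ b :: v) k' := by
  induction h with
  | nil =>
    intro u v a b h
    simp at h
  | @del x y k c h ih =>
    intro u v a b hu
    obtain ⟨k', hk, h'⟩ := ih u v a b hu
    exact ⟨k' + 1, by omega, Aln.del c h'⟩
  | @ins x y k c h ih =>
    intro u v a b hu
    cases u with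
    | nil =>
      simp only [List.nil_append, List.cons.injEq] at hu ⊢
      obtain ⟨rfl, rfl⟩ := hu
      exact ⟨k + 1, by omega, Aln.ins b h⟩
    | cons e u =>
      simp only [List.cons_append, List.cons.injEq] at hu
      obtain ⟨rfl, hu⟩ := hu
      obtain ⟨k', hk, h'⟩ := ih u v a b hu
      exact ⟨k' + 1, by omega, Aln.ins c h'⟩
  | @sub x y k c d h ih =>
    intro u v a b hu
    cases u with
    | nil =>
      simp only [List.nil_append, List.cons.injEq] at hu ⊢
      obtain ⟨rfl, rfl⟩ := hu
      exact ⟨k + 1, by omega, Aln.sub c b h⟩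
    | cons e u =>
      simp only [List.cons_append, List.cons.injEq] at hu
      obtain ⟨rfl, hu⟩ := hu
      obtain ⟨k', hk, h'⟩ := ih u v a b hu
      exact ⟨k' + 1, by omega, Aln.sub c d h'⟩
  | @eq x y k c h ih =>
    intro u v a b hu
    cases u with
    | nil =>
      simp only [List.nil_append, List.cons.injEq] at hu ⊢
      obtain ⟨rfl, rfl⟩ := hu
      exact ⟨k + 1, by omega, Aln.sub c b h⟩
    | cons e u =>
      simp only [List.cons_append, List.cons.injEq] at hu
      obtain ⟨rfl, hu⟩ := hu
      obtain ⟨k', hk, h'⟩ := ih u v a b hu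
      exact ⟨k', by omega, Aln.eq c h'⟩

theorem Aln.edit {x y z : List α} {k : ℕ} (h : Aln x y k) (e : Edit y z) :
    ∃ k' ≤ k + 1, Aln x z k' := by
  cases e with
  | ins u v a => exact h.insert_right u v a rfl
  | del u v a => exact h.delete_right u v a rfl
  | sub u v a b => exact h.subst_right u v a b rfl

theorem Reach.exists_aln {x y : List α} {k : ℕ} (h : Reach k x y) : ∃ k' ≤ k, Aln x y k' := by
  induction h with
  | zero x => exact ⟨0, le_rfl, Aln.refl x⟩
  | @succ k x y z h e ih =>
    obtain ⟨k', hk, h'⟩ := ih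
    obtain ⟨k'', hk', h''⟩ := h'.edit e
    exact ⟨k'', by omega, h''⟩

theorem Edit.cons {x y : List α} (a : α) (e : Edit x y) : Edit (a :: x) (a :: y) := by
  cases e with
  | ins u v b => exact Edit.ins (a :: u) v b
  | del u v b => exact Edit.del (a :: u) v b
  | sub u v b c => exact Edit.sub (a :: u) v b c

theorem Reach.cons {x y : List α} {k : ℕ} (a : α) (h : Reach k x y) :
    Reach k (a :: x) (a :: y) := by
  induction h with
  | zero x => exact Reach.zero _
  | succ _ e ih => exact Reach.succ ih (e.cons a)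

theorem Aln.reach {x y : List α} {k : ℕ} (h : Aln x y k) :
    Reach k x y := by
  induction h with
  | nil => exact Reach.zero _
  | @del x y k a h ih =>
    -- first reach `a :: y`, then delete `a`
    exact Reach.succ (ih.cons a) (Edit.del [] y a)
  | @ins x y k b h ih => exact Reach.succ ih (Edit.ins [] y b)
  | @sub x y k a b h ih => exact Reach.succ (ih.cons a) (Edit.sub [] y a b)
  | @eq x y k a h ih => exact ih.cons a

theorem ed_le_of_aln {x y : List α} {k : ℕ} (h : Aln x y k) : ed x y ≤ k :=
  Nat.sInf_le h.reach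

theorem aln_trivial (x y : List α) : ∃ k, Aln x y k := by
  induction x with
  | nil =>
    induction y with
    | nil => exact ⟨0, Aln.nil⟩
    | cons b y ih =>
      obtain ⟨k, h⟩ := ih
      exact ⟨k + 1, Aln.ins b h⟩
  | cons a x ih =>
    obtain ⟨k, h⟩ := ih
    exact ⟨k + 1, Aln.del a h⟩

theorem aln_ed (x y : List α) : Aln x y (ed x y) := by
  have hne : {k | Reach k x y}.Nonempty := by
    obtain ⟨k, h⟩ := aln_trivial x y
    exact ⟨k, h.reach⟩
  have h1 : Reach (ed x y) x y := Nat.sInf_mem hne
  obtain ⟨k', hk, h'⟩ := h1.exists_aln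
  have h2 : ed x y ≤ k' := ed_le_of_aln h'
  have h3 : k' = ed x y := le_antisymm hk h2
  rw [h3] at h'
  exact h'

theorem ed_refl (x : List α) : ed x x = 0 := Nat.le_zero.mp (ed_le_of_aln (Aln.refl x))

theorem aln_max (x y : List α) : Aln x y (max x.length y.length) ∨
    ∃ k ≤ max x.length y.length, Aln x y k := by
  right
  induction x generalizing y with
  | nil =>
    induction y with
    | nil => exact ⟨0, by simp, Aln.nil⟩
    | cons b y ih =>
      obtain ⟨k, hk, h⟩ := ih
      exact ⟨k + 1, by simp at hk ⊢; omega, Aln.ins b h⟩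
  | cons a x ih =>
    cases y with
    | nil =>
      obtain ⟨k, hk, h⟩ := ih []
      exact ⟨k + 1, by simp at hk ⊢; omega, Aln.del a h⟩
    | cons b y =>
      obtain ⟨k, hk, h⟩ := ih y
      exact ⟨k + 1, by simp at hk ⊢; omega, Aln.sub a b h⟩

theorem Aln.append {x y u v : List α} {k l : ℕ} (h : Aln u v k) (h' : Aln x y l) :
    Aln (u ++ x) (v ++ y) (k + l) := by
  induction h with
  | nil => simpa using h'
  | @del u v k a h ih =>
    have := Aln.del a ih
    rw [show k + 1 + l = k + l + 1 by omega]
    exact this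
  | @ins u v k a h ih =>
    have := Aln.ins a ih
    rw [show k + 1 + l = k + l + 1 by omega]
    exact this
  | @sub u v k a b h ih =>
    have := Aln.sub a b ih
    rw [show k + 1 + l = k + l + 1 by omega]
    exact this
  | @eq u v k a h ih => exact Aln.eq a ih

theorem ed_append_le (u v x y : List α) :
    ed (u ++ x) (v ++ y) ≤ max u.length v.length + ed x y := by
  have h1 : ∃ k ≤ max u.length v.length, Aln u v k := by
    rcases aln_max u v with h | h
    · exact ⟨_, le_rfl, h⟩
    · exact h
  obtain ⟨k, hk, h⟩ := h1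
  have := ed_le_of_aln (h.append (aln_ed x y))
  omega

theorem ed_cons_cons_le (a : α) (x y : List α) : ed (a :: x) (a :: y) ≤ ed x y :=
  ed_le_of_aln (Aln.eq a (aln_ed x y))

theorem ed_le_max (x y : List α) : ed x y ≤ max x.length y.length := by
  have := ed_append_le x y [] []
  rw [ed_refl] at this
  simpa using this

/-- upper bound for symbolwise encodings -/
theorem ed_encode_le {L : ℕ} (c : α → Fin L → β) (x y : List α) :
    ed (encode c x) (encode c y) ≤ L * ed x y := by
  have key : ∀ {x y : List α} {k : ℕ}, Aln x y k → ed (encode c x) (encode c y) ≤ L * k := by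
    intro x y k h
    induction h with
    | nil => simp [encode, ed_refl]
    | @del x y k a h ih =>
      have h1 := ed_append_le (List.ofFn (c a)) [] (encode c x) (encode c y)
      simp only [List.length_ofFn, List.length_nil, List.nil_append] at h1
      have h2 : encode c (a :: x) = List.ofFn (c a) ++ encode c x := by simp [encode]
      rw [h2]
      calc _ ≤ max L 0 + ed (encode c x) (encode c y) := h1
        _ ≤ L + L * k := by simpa using ih
        _ = L * (k + 1) := by ring
    | @ins x y k b h ih =>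
      have h1 := ed_append_le [] (List.ofFn (c b)) (encode c x) (encode c y)
      simp only [List.length_ofFn, List.length_nil, List.nil_append] at h1
      have h2 : encode c (b :: y) = List.ofFn (c b) ++ encode c y := by simp [encode]
      rw [h2]
      calc _ ≤ max 0 L + ed (encode c x) (encode c y) := h1
        _ ≤ L + L * k := by simpa using ih
        _ = L * (k + 1) := by ring
    | @sub x y k a b h ih =>
      have h1 := ed_append_le (List.ofFn (c a)) (List.ofFn (c b)) (encode c x) (encode c y)
      simp only [List.length_ofFn, max_self] at h1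
      have h2 : encode c (a :: x) = List.ofFn (c a) ++ encode c x := by simp [encode]
      have h3 : encode c (b :: y) = List.ofFn (c b) ++ encode c y := by simp [encode]
      rw [h2, h3]
      calc _ ≤ L + ed (encode c x) (encode c y) := h1
        _ ≤ L + L * k := by simpa using ih
        _ = L * (k + 1) := by ring
    | @eq x y k a h ih =>
      have h2 : encode c (a :: x) = List.ofFn (c a) ++ encode c x := by simp [encode]
      have h3 : encode c (a :: y) = List.ofFn (c a) ++ encode c y := by simp [encode]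
      rw [h2, h3]
      have h4 : ∀ (w u v : List β), ed (w ++ u) (w ++ v) ≤ ed u v := by
        intro w u v
        induction w with
        | nil => simp
        | cons b w ihw => exact (ed_cons_cons_le b _ _).trans ihw
      exact (h4 _ _ _).trans ih
  exact key (aln_ed x y)

end Vale.Agent.P315
end

section

namespace Vale.Agent.P315

variable {α β : Type*}

/-- alignment paths between positions, recording the list of equal pairs -/
inductive Pth (X Y : ℕ → β) : ℕ → ℕ → ℕ → ℕ → ℕ → List (ℕ × ℕ) → Prop
  | nil (p q : ℕ) : Pth X Y p q p q 0 []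
  | del {p q p' q' k : ℕ} {l : List (ℕ × ℕ)} :
      Pth X Y (p + 1) q p' q' k l → Pth X Y p q p' q' (k + 1) l
  | ins {p q p' q' k : ℕ} {l : List (ℕ × ℕ)} :
      Pth X Y p (q + 1) p' q' k l → Pth X Y p q p' q' (k + 1) l
  | sub {p q p' q' k : ℕ} {l : List (ℕ × ℕ)} :
      Pth X Y (p + 1) (q + 1) p' q' k l → Pth X Y p q p' q' (k + 1) l
  | eq {p q p' q' k : ℕ} {l : List (ℕ × ℕ)} : X p = Y q →
      Pth X Y (p + 1) (q + 1) p' q' k l → Pth X Y p q p' q' k ((p, q) :: l)

theorem exists_pth {X Y : ℕ → β} {u v : List β} {k : ℕ} (h : Aln u v k) :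
    ∀ p q : ℕ, u = (List.range' p u.length).map X → v = (List.range' q v.length).map Y →
      ∃ l, Pth X Y p q (p + u.length) (q + v.length) k l := by
  induction h with
  | nil => intro p q _ _; exact ⟨[], Pth.nil p q⟩
  | @del x y k a h ih =>
    intro p q hu hv
    simp only [List.length_cons, List.range'_succ, List.map_cons, List.cons.injEq] at hu
    obtain ⟨l, hl⟩ := ih (p + 1) q hu.2 hv
    refine ⟨l, ?_⟩
    have h2 : p + (a :: x).length = p + 1 + x.length := by simp; omega
    rw [h2]
    exact Pth.del hl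
  | @ins x y k b h ih =>
    intro p q hu hv
    simp only [List.length_cons, List.range'_succ, List.map_cons, List.cons.injEq] at hv
    obtain ⟨l, hl⟩ := ih p (q + 1) hu hv.2
    refine ⟨l, ?_⟩
    have h2 : q + (b :: y).length = q + 1 + y.length := by simp; omega
    rw [h2]
    exact Pth.ins hl
  | @sub x y k a b h ih =>
    intro p q hu hv
    simp only [List.length_cons, List.range'_succ, List.map_cons, List.cons.injEq] at hu hv
    obtain ⟨l, hl⟩ := ih (p + 1) (q + 1) hu.2 hv.2
    refine ⟨l, ?_⟩
    have h1 : p + (a :: x).length = p + 1 + x.length := by simp; omega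
    have h2 : q + (b :: y).length = q + 1 + y.length := by simp; omega
    rw [h1, h2]
    exact Pth.sub hl
  | @eq x y k a h ih =>
    intro p q hu hv
    simp only [List.length_cons, List.range'_succ, List.map_cons, List.cons.injEq] at hu hv
    obtain ⟨l, hl⟩ := ih (p + 1) (q + 1) hu.2 hv.2
    refine ⟨(p, q) :: l, ?_⟩
    have h1 : p + (a :: x).length = p + 1 + x.length := by simp; omega
    have h2 : q + (a :: y).length = q + 1 + y.length := by simp; omega
    rw [h1, h2]
    exact Pth.eq (hu.1.symm.trans hv.1) hl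

section basic
variable {X Y : ℕ → β} {p q p' q' k : ℕ} {l : List (ℕ × ℕ)}

theorem Pth.le (h : Pth X Y p q p' q' k l) : p ≤ p' ∧ q ≤ q' := by
  induction h with
  | nil => simp
  | del _ ih => omega
  | ins _ ih => omega
  | sub _ ih => omega
  | eq _ _ ih => omega

theorem Pth.len (h : Pth X Y p q p' q' k l) : p' ≤ p + k + l.length ∧ q' ≤ q + k + l.length := by
  induction h with
  | nil => simp
  | del _ ih => omega
  | ins _ ih => omega
  | sub _ ih => omega
  | eq _ _ ih => simp only [List.length_cons]; omega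

theorem Pth.diff (h : Pth X Y p q p' q' k l) : p' + q ≤ p + k + q' ∧ q' + p ≤ q + k + p' := by
  induction h with
  | nil => omega
  | del _ ih => omega
  | ins _ ih => omega
  | sub _ ih => omega
  | eq _ _ ih => omega

theorem Pth.mem (h : Pth X Y p q p' q' k l) :
    ∀ u ∈ l, p ≤ u.1 ∧ u.1 < p' ∧ q ≤ u.2 ∧ u.2 < q' ∧ X u.1 = Y u.2 := by
  induction h with
  | nil => simp
  | del _ ih => intro u hu; have := ih u hu; refine ⟨?_, ?_, ?_, ?_, this.2.2.2.2⟩ <;> omega
  | ins _ ih => intro u hu; have := ih u hu; refine ⟨?_, ?_, ?_, ?_, this.2.2.2.2⟩ <;> omega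
  | sub _ ih => intro u hu; have := ih u hu; refine ⟨?_, ?_, ?_, ?_, this.2.2.2.2⟩ <;> omega
  | @eq p q p' q' k l e h ih =>
    intro u hu
    simp only [List.mem_cons] at hu
    have hle := h.le
    rcases hu with rfl | hu
    · refine ⟨le_rfl, ?_, le_rfl, ?_, e⟩ <;> simp only <;> omega
    · have := ih u hu
      refine ⟨?_, ?_, ?_, ?_, this.2.2.2.2⟩ <;> omega

theorem Pth.pairwise (h : Pth X Y p q p' q' k l) :
    l.Pairwise fun u v => u.1 < v.1 ∧ u.2 < v.2 := by
  induction h with
  | nil => exact List.Pairwise.nil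
  | del _ ih => exact ih
  | ins _ ih => exact ih
  | sub _ ih => exact ih
  | @eq p q p' q' k l e h ih =>
    refine List.Pairwise.cons ?_ ih
    intro u hu
    have := h.mem u hu
    simp only
    omega

theorem Pth.split (h : Pth X Y p q p' q' k l) :
    ∀ (l₁ : List (ℕ × ℕ)) (u : ℕ × ℕ) (l₂ : List (ℕ × ℕ)), l = l₁ ++ u :: l₂ →
      ∃ k₁ k₂, k = k₁ + k₂ ∧ Pth X Y p q u.1 u.2 k₁ l₁ ∧
        Pth X Y (u.1 + 1) (u.2 + 1) p' q' k₂ l₂ := by
  induction h with
  | nil => intro l₁ u l₂ h; simp at h
  | @del p q p' q' k l h ih =>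
    intro l₁ u l₂ e
    obtain ⟨k₁, k₂, hk, h1, h2⟩ := ih l₁ u l₂ e
    exact ⟨k₁ + 1, k₂, by omega, Pth.del h1, h2⟩
  | @ins p q p' q' k l h ih =>
    intro l₁ u l₂ e
    obtain ⟨k₁, k₂, hk, h1, h2⟩ := ih l₁ u l₂ e
    exact ⟨k₁ + 1, k₂, by omega, Pth.ins h1, h2⟩
  | @sub p q p' q' k l h ih =>
    intro l₁ u l₂ e
    obtain ⟨k₁, k₂, hk, h1, h2⟩ := ih l₁ u l₂ e
    exact ⟨k₁ + 1, k₂, by omega, Pth.sub h1, h2⟩
  | @eq p q p' q' k l e h ih =>
    intro l₁ u l₂ e'
    cases l₁ with
    | nil =>
      simp only [List.nil_append, List.cons.injEq] at e'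
      obtain ⟨rfl, rfl⟩ := e'
      exact ⟨0, k, by omega, Pth.nil p q, h⟩
    | cons w l₁ =>
      simp only [List.cons_append, List.cons.injEq] at e'
      obtain ⟨rfl, e'⟩ := e'
      obtain ⟨k₁, k₂, hk, h1, h2⟩ := ih l₁ u l₂ e'
      exact ⟨k₁, k₂, hk, Pth.eq e h1, h2⟩

end basic

/-- a finite set of pairs of positions is a chain -/
def IsChn (S : Finset (ℕ × ℕ)) : Prop :=
  ∀ u ∈ S, ∀ v ∈ S, u ≠ v → (u.1 < v.1 ∧ u.2 < v.2) ∨ (v.1 < u.1 ∧ v.2 < u.2)

/-- Property of a code: words of length `L`, at most `K` false coincidences -/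
def Sep (L K : ℕ) (c : α → ℕ → β) : Prop :=
  ∀ (s t : α) (S : Finset (ℕ × ℕ)), IsChn S →
    (∀ u ∈ S, u.1 < L ∧ u.2 < L ∧ c s u.1 = c t u.2 ∧ ¬ (s = t ∧ u.1 = u.2)) → S.card ≤ K

/-- counting false coincidences along a path -/
theorem count_false {L K : ℕ} (hL : 0 < L) {c : α → ℕ → β} (hc : Sep L K c) (x y : ℕ → α)
    (l : List (ℕ × ℕ)) (hl : l.Pairwise fun u v => u.1 < v.1 ∧ u.2 < v.2)
    (heq : ∀ u ∈ l, c (x (u.1 / L)) (u.1 % L) = c (y (u.2 / L)) (u.2 % L))
    (hf : ∀ u ∈ l, ¬ (x (u.1 / L) = y (u.2 / L) ∧ u.1 % L = u.2 % L))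
    (A B : ℕ) (hA : ∀ u ∈ l, A ≤ u.1 / L + u.2 / L + 2) (hB : ∀ u ∈ l, u.1 / L + u.2 / L + 2 ≤ B) :
    l.length ≤ K * (B + 1 - A) := by
  classical
  have hnd : l.Nodup := by
    refine hl.imp ?_
    intro u v h e
    subst e
    omega
  have hchain : ∀ u ∈ l, ∀ v ∈ l, u ≠ v → (u.1 < v.1 ∧ u.2 < v.2) ∨ (v.1 < u.1 ∧ v.2 < u.2) := by
    have h3 : l.Pairwise fun u v : ℕ × ℕ =>
        (u.1 < v.1 ∧ u.2 < v.2) ∨ (v.1 < u.1 ∧ v.2 < u.2) := hl.imp fun h => Or.inl h
    intro u hu v hv huv
    have : Std.Symm (fun u v : ℕ × ℕ =>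
        (u.1 < v.1 ∧ u.2 < v.2) ∨ (v.1 < u.1 ∧ v.2 < u.2)) := ⟨fun a b h => h.symm⟩
    exact h3.forall hu hv huv
  have hcard : l.toFinset.card = l.length := List.toFinset_card_of_nodup hnd
  rw [← hcard]
  have hI : (Finset.Icc A B).card = B + 1 - A := Nat.card_Icc A B
  rw [← hI]
  refine Finset.card_le_mul_card_image_of_maps_to (f := fun u : ℕ × ℕ => u.1 / L + u.2 / L + 2)
    ?_ K ?_
  · intro u hu
    rw [List.mem_toFinset] at hu
    simp only [Finset.mem_Icc]
    exact ⟨hA u hu, hB u hu⟩
  · intro b _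
    set T := l.toFinset.filter (fun u : ℕ × ℕ => u.1 / L + u.2 / L + 2 = b) with hT
    have hTl : ∀ u ∈ T, u ∈ l ∧ u.1 / L + u.2 / L + 2 = b := by
      intro u hu
      rw [hT, Finset.mem_filter, List.mem_toFinset] at hu
      exact hu
    rcases T.eq_empty_or_nonempty with h0 | ⟨u₀, hu₀⟩
    · rw [h0]; simp
    have hsame : ∀ u ∈ T, u.1 / L = u₀.1 / L ∧ u.2 / L = u₀.2 / L := by
      intro u hu
      by_cases h : u = u₀
      · subst h; exact ⟨rfl, rfl⟩
      have h1 := (hTl u hu).2
      have h2 := (hTl u₀ hu₀).2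
      rcases hchain u (hTl u hu).1 u₀ (hTl u₀ hu₀).1 h with h3 | h3
      · have h4 := Nat.div_le_div_right (c := L) h3.1.le
        have h5 := Nat.div_le_div_right (c := L) h3.2.le
        constructor <;> omega
      · have h4 := Nat.div_le_div_right (c := L) h3.1.le
        have h5 := Nat.div_le_div_right (c := L) h3.2.le
        constructor <;> omega
    have hinj : Set.InjOn (fun u : ℕ × ℕ => (u.1 % L, u.2 % L)) T := by
      intro u hu v hv huv
      have h1 := hsame u hu
      have h2 := hsame v hv
      simp only [Prod.mk.injEq] at huv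
      have h3 := Nat.div_add_mod u.1 L
      have h4 := Nat.div_add_mod v.1 L
      have h5 := Nat.div_add_mod u.2 L
      have h6 := Nat.div_add_mod v.2 L
      rw [h1.1, huv.1] at h3
      rw [h2.1] at h4
      rw [h1.2, huv.2] at h5
      rw [h2.2] at h6
      exact Prod.ext (h3.symm.trans h4) (h5.symm.trans h6)
    rw [← Finset.card_image_of_injOn hinj]
    refine hc (x (u₀.1 / L)) (y (u₀.2 / L)) _ ?_ ?_
    · intro u hu v hv huv
      simp only [Finset.mem_image] at hu hv
      obtain ⟨u', hu', rfl⟩ := hu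
      obtain ⟨v', hv', rfl⟩ := hv
      have hne : u' ≠ v' := by
        intro h; apply huv; rw [h]
      have h1 := hsame u' hu'
      have h2 := hsame v' hv'
      have h3 := Nat.div_add_mod u'.1 L
      have h4 := Nat.div_add_mod v'.1 L
      have h5 := Nat.div_add_mod u'.2 L
      have h6 := Nat.div_add_mod v'.2 L
      rw [h1.1] at h3
      rw [h2.1] at h4
      rw [h1.2] at h5
      rw [h2.2] at h6
      rcases hchain u' (hTl u' hu').1 v' (hTl v' hv').1 hne with h7 | h7
      · left; simp only; omega
      · right; simp only; omega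
    · intro u hu
      simp only [Finset.mem_image] at hu
      obtain ⟨u', hu', rfl⟩ := hu
      have h1 := hsame u' hu'
      have h2 := heq u' (hTl u' hu').1
      have h3 := hf u' (hTl u' hu').1
      rw [h1.1, h1.2] at h2 h3
      exact ⟨Nat.mod_lt _ hL, Nat.mod_lt _ hL, h2, h3⟩

end Vale.Agent.P315
end

section

namespace Vale.Agent.P315

variable {α β : Type*}

/-- the piece of a sequence between two positions -/
def seg (f : ℕ → α) (i n : ℕ) : List α := (List.range' i (n - i)).map f

theorem seg_length (f : ℕ → α) (i n : ℕ) : (seg f i n).length = n - i := by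
  simp [seg]

theorem seg_split (f : ℕ → α) {i j n : ℕ} (h1 : i ≤ j) (h2 : j ≤ n) :
    seg f i n = seg f i j ++ seg f j n := by
  unfold seg
  rw [← List.map_append]
  congr 1
  have h3 : n - i = (j - i) + (n - j) := by omega
  have h4 : j = i + (j - i) := by omega
  rw [h3]
  conv_rhs => rw [show List.range' j (n - j) = List.range' (i + 1 * (j - i)) (n - j) by
    rw [one_mul, ← h4]]
  rw [List.range'_append]

theorem seg_cons (f : ℕ → α) {i n : ℕ} (h : i < n) : seg f i n = f i :: seg f (i + 1) n := by
  unfold seg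
  have h1 : n - i = (n - (i + 1)) + 1 := by omega
  rw [h1, List.range'_succ, List.map_cons]

theorem seg_self (f : ℕ → α) (i : ℕ) : seg f i i = [] := by
  simp [seg]

/-- first element satisfying a predicate -/
theorem first_true {γ : Type*} (P : γ → Prop) (l : List γ) :
    (∀ u ∈ l, ¬ P u) ∨ ∃ l₁ u l₂, l = l₁ ++ u :: l₂ ∧ (∀ v ∈ l₁, ¬ P v) ∧ P u := by
  induction l with
  | nil => left; simp
  | cons a l ih =>
    by_cases ha : P a
    · right
      exact ⟨[], a, l, rfl, by simp, ha⟩
    · rcases ih with ih | ⟨l₁, u, l₂, h1, h2, h3⟩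
      · left
        intro u hu
        rcases List.mem_cons.mp hu with rfl | hu
        · exact ha
        · exact ih u hu
      · right
        refine ⟨a :: l₁, u, l₂, by rw [h1]; rfl, ?_, h3⟩
        intro v hv
        rcases List.mem_cons.mp hv with rfl | hv
        · exact ha
        · exact h2 v hv

theorem gap_end {L K D : ℕ} (hL : 0 < L) (hD : D + 5 * K = L) {c : α → ℕ → β} (hc : Sep L K c)
    (xf yf : ℕ → α) (n m : ℕ) (l : List (ℕ × ℕ)) (ρ I J p q k : ℕ) (hρ : ρ < L)
    (hp : p + ρ = I * L) (hq : q + ρ = J * L)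
    (h : Pth (fun i => c (xf (i / L)) (i % L)) (fun i => c (yf (i / L)) (i % L)) p q
        (n * L) (m * L) k l)
    (hf : ∀ u ∈ l, ¬ (xf (u.1 / L) = yf (u.2 / L) ∧ u.1 % L = u.2 % L)) :
    D * ed (seg xf I n) (seg yf J m) ≤ k := by
  have hmem := h.mem
  have hIn : I ≤ n := by
    by_contra hcon
    have h1 : (n + 1) * L ≤ I * L := Nat.mul_le_mul_right L (by omega)
    have h2 := h.le.1
    rw [Nat.add_mul] at h1
    omega
  have hJm : J ≤ m := by
    by_contra hcon
    have h1 : (m + 1) * L ≤ J * L := Nat.mul_le_mul_right L (by omega)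
    have h2 := h.le.2
    rw [Nat.add_mul] at h1
    omega
  have hF : l.length ≤ K * (n + m + 1 - (I + J)) := by
    refine count_false hL hc xf yf l h.pairwise (fun u hu => (hmem u hu).2.2.2.2) hf (I + J) (n + m)
      ?_ ?_
    · intro u hu
      have h1 := hmem u hu
      have h2 : I ≤ u.1 / L + 1 := by
        rw [← Nat.add_div_right u.1 hL]
        rw [Nat.le_div_iff_mul_le hL]
        omega
      have h3 : J ≤ u.2 / L + 1 := by
        rw [← Nat.add_div_right u.2 hL]
        rw [Nat.le_div_iff_mul_le hL]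
        omega
      omega
    · intro u hu
      have h1 := hmem u hu
      have h2 : u.1 / L < n := by
        rw [Nat.div_lt_iff_lt_mul hL]; exact h1.2.1
      have h3 : u.2 / L < m := by
        rw [Nat.div_lt_iff_lt_mul hL]; exact h1.2.2.2.1
      omega
  have hlen := h.len
  have hed := ed_le_max (seg xf I n) (seg yf J m)
  rw [seg_length, seg_length] at hed
  obtain ⟨a, rfl⟩ := Nat.exists_eq_add_of_le hIn
  obtain ⟨b, rfl⟩ := Nat.exists_eq_add_of_le hJm
  have e1 : I + a - I = a := by omega
  have e2 : J + b - J = b := by omega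
  rw [e1, e2] at hed
  have e3 : I + a + (J + b) + 1 - (I + J) = a + b + 1 := by omega
  rw [e3] at hF
  have e4 : (I + a) * L = I * L + a * L := Nat.add_mul _ _ _
  have e5 : (J + b) * L = J * L + b * L := Nat.add_mul _ _ _
  rw [e4, e5] at hlen
  set M := max a b with hM
  rcases Nat.eq_zero_or_pos M with h0 | h0
  · have : ed (seg xf I (I + a)) (seg yf J (J + b)) = 0 := by omega
    rw [this]; simp
  · have hF2 : K * (a + b + 1) ≤ K * (3 * M) := Nat.mul_le_mul_left K (by omega)
    have h5 : M * L ≤ k + l.length := by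
      rcases le_total a b with hab | hab
      · have : M = b := by rw [hM]; exact max_eq_right hab
        rw [this]; omega
      · have : M = a := by rw [hM]; exact max_eq_left hab
        rw [this]; omega
    have h6 : D * ed (seg xf I (I + a)) (seg yf J (J + b)) ≤ D * M := Nat.mul_le_mul_left D hed
    have h7 : D * M + 5 * (K * M) = M * L := by rw [← hD]; ring
    have h8 : K * (3 * M) = 3 * (K * M) := by ring
    omega

theorem gap {L K D : ℕ} (hL : 0 < L) (hD : D + 5 * K = L) {c : α → ℕ → β} (hc : Sep L K c)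
    (xf yf : ℕ → α) (n m : ℕ) :
    ∀ (N : ℕ) (l : List (ℕ × ℕ)), l.length < N → ∀ (ρ I J p q k : ℕ), ρ < L →
      p + ρ = I * L → q + ρ = J * L →
      Pth (fun i => c (xf (i / L)) (i % L)) (fun i => c (yf (i / L)) (i % L)) p q
        (n * L) (m * L) k l →
      D * ed (seg xf I n) (seg yf J m) ≤ k := by
  intro N
  induction N with
  | zero =>
    intro l hl
    omega
  | succ N ih =>
    intro l hl ρ I J p q k hρ hp hq h
    rcases first_true (fun u : ℕ × ℕ => xf (u.1 / L) = yf (u.2 / L) ∧ u.1 % L = u.2 % L) l with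
      hf | ⟨l₁, u, l₂, hl12, hf, hu⟩
    · exact gap_end hL hD hc xf yf n m l ρ I J p q k hρ hp hq h hf
    · have hul : u ∈ l := by rw [hl12]; simp
      have humem := h.mem u hul
      obtain ⟨k₁, k₂, hk, h1, h2⟩ := h.split l₁ u l₂ hl12
      obtain ⟨a, b⟩ := u
      simp only at hu humem h1 h2
      set i' := a / L with hi'
      set j' := b / L with hj'
      set r := a % L with hr
      have ha : i' * L + r = a := by rw [mul_comm]; exact Nat.div_add_mod a L
      have hb : j' * L + r = b := by rw [mul_comm, hu.2]; exact Nat.div_add_mod b L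
      have hrL : r < L := Nat.mod_lt _ hL
      have hi'n : i' < n := by
        rw [hi', Nat.div_lt_iff_lt_mul hL]; exact humem.2.1
      have hj'm : j' < m := by
        rw [hj', Nat.div_lt_iff_lt_mul hL]; exact humem.2.2.2.1
      have hII : I ≤ i' + 1 := by
        rw [hi', ← Nat.add_div_right a hL, Nat.le_div_iff_mul_le hL]
        omega
      have hJJ : J ≤ j' + 1 := by
        rw [hj', ← Nat.add_div_right b hL, Nat.le_div_iff_mul_le hL]
        omega
      have hlen2 : l₂.length < N := by
        rw [hl12] at hl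
        simp only [List.length_append, List.length_cons] at hl
        omega
      have e1 : (i' + 1) * L = i' * L + L := by ring
      have e2 : (j' + 1) * L = j' * L + L := by ring
      have IH := ih l₂ hlen2 (L - 1 - r) (i' + 1) (j' + 1) (a + 1) (b + 1) k₂ (by omega)
        (by omega) (by omega) h2
      have hd := h1.diff
      have hlen := h1.len
      rcases Nat.eq_or_lt_of_le hII with hI | hI
      · rcases Nat.eq_or_lt_of_le hJJ with hJ | hJ
        · rw [hI, hJ]; omega
        · -- `I = i' + 1`, `J ≤ j'`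
          rw [hI] at hp ⊢
          have h3 : ed (seg xf (i' + 1) n) (seg yf J m) ≤
              (j' + 1 - J) + ed (seg xf (i' + 1) n) (seg yf (j' + 1) m) := by
            have h4 := ed_append_le [] (seg yf J (j' + 1)) (seg xf (i' + 1) n) (seg yf (j' + 1) m)
            rw [← seg_split yf (by omega) (by omega), List.nil_append, seg_length] at h4
            simpa using h4
          obtain ⟨w, hw⟩ := Nat.exists_eq_add_of_lt hJ
          have e3 : j' + 1 - J = w + 1 := by omega
          rw [e3] at h3
          have e4 : j' * L = J * L + w * L := by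
            rw [← Nat.add_mul]; congr 1; omega
          have h5 : (w + 1) * L ≤ k₁ := by
            rw [Nat.add_mul, one_mul]; omega
          have h6 : D * (w + 1) ≤ (w + 1) * L := by
            rw [mul_comm]; exact Nat.mul_le_mul_left _ (by omega)
          calc _ ≤ D * ((w + 1) + ed (seg xf (i' + 1) n) (seg yf (j' + 1) m)) :=
                Nat.mul_le_mul_left D h3
            _ = D * (w + 1) + D * ed (seg xf (i' + 1) n) (seg yf (j' + 1) m) := Nat.mul_add _ _ _
            _ ≤ k := by omega
      · rcases Nat.eq_or_lt_of_le hJJ with hJ | hJ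
        · rw [hJ] at hq ⊢
          have h3 : ed (seg xf I n) (seg yf (j' + 1) m) ≤
              (i' + 1 - I) + ed (seg xf (i' + 1) n) (seg yf (j' + 1) m) := by
            have h4 := ed_append_le (seg xf I (i' + 1)) [] (seg xf (i' + 1) n) (seg yf (j' + 1) m)
            rw [← seg_split xf (by omega) (by omega), List.nil_append, seg_length] at h4
            simpa using h4
          obtain ⟨w, hw⟩ := Nat.exists_eq_add_of_lt hI
          have e3 : i' + 1 - I = w + 1 := by omega
          rw [e3] at h3
          have e4 : i' * L = I * L + w * L := by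
            rw [← Nat.add_mul]; congr 1; omega
          have h5 : (w + 1) * L ≤ k₁ := by
            rw [Nat.add_mul, one_mul]; omega
          have h6 : D * (w + 1) ≤ (w + 1) * L := by
            rw [mul_comm]; exact Nat.mul_le_mul_left _ (by omega)
          calc _ ≤ D * ((w + 1) + ed (seg xf (i' + 1) n) (seg yf (j' + 1) m)) :=
                Nat.mul_le_mul_left D h3
            _ = D * (w + 1) + D * ed (seg xf (i' + 1) n) (seg yf (j' + 1) m) := Nat.mul_add _ _ _
            _ ≤ k := by omega
        · -- `I ≤ i'`, `J ≤ j'`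
          have hmem1 := h1.mem
          have hF : l₁.length ≤ K * (i' + j' + 2 + 1 - (I + J)) := by
            refine count_false hL hc xf yf l₁ h1.pairwise (fun u hu => (hmem1 u hu).2.2.2.2) hf
              (I + J) (i' + j' + 2) ?_ ?_
            · intro u hu
              have h1 := hmem1 u hu
              have h2 : I ≤ u.1 / L + 1 := by
                rw [← Nat.add_div_right u.1 hL]
                rw [Nat.le_div_iff_mul_le hL]
                omega
              have h3 : J ≤ u.2 / L + 1 := by
                rw [← Nat.add_div_right u.2 hL]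
                rw [Nat.le_div_iff_mul_le hL]
                omega
              omega
            · intro u hu
              have h1 := hmem1 u hu
              have h2 : u.1 / L ≤ i' := Nat.div_le_div_right (by omega)
              have h3 : u.2 / L ≤ j' := Nat.div_le_div_right (by omega)
              omega
          have h3 : ed (seg xf I n) (seg yf J m) ≤ max (i' - I) (j' - J) +
              ed (seg xf (i' + 1) n) (seg yf (j' + 1) m) := by
            have h4 := ed_append_le (seg xf I i') (seg yf J j') (seg xf i' n) (seg yf j' m)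
            rw [← seg_split xf (by omega) (by omega), ← seg_split yf (by omega) (by omega),
              seg_length, seg_length] at h4
            have h5 : ed (seg xf i' n) (seg yf j' m) ≤
                ed (seg xf (i' + 1) n) (seg yf (j' + 1) m) := by
              rw [seg_cons xf hi'n, seg_cons yf hj'm, hu.1]
              exact ed_cons_cons_le _ _ _
            omega
          obtain ⟨s, hs⟩ := Nat.exists_eq_add_of_lt hI
          obtain ⟨t, ht⟩ := Nat.exists_eq_add_of_lt hJ
          have e3 : i' - I = s := by omega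
          have e4 : j' - J = t := by omega
          rw [e3, e4] at h3
          have e5 : i' + j' + 2 + 1 - (I + J) = s + t + 3 := by omega
          rw [e5] at hF
          have e6 : i' * L = I * L + s * L := by
            rw [← Nat.add_mul]; congr 1; omega
          have e7 : j' * L = J * L + t * L := by
            rw [← Nat.add_mul]; congr 1; omega
          set M := max s t with hM
          have hkey : D * M ≤ k₁ := by
            rcases Nat.eq_zero_or_pos M with h0 | h0
            · rw [h0]; simp
            · have hF2 : K * (s + t + 3) ≤ K * (5 * M) := Nat.mul_le_mul_left K (by omega)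
              have h5 : M * L ≤ k₁ + l₁.length := by
                rcases le_total s t with hab | hab
                · have : M = t := by rw [hM]; exact max_eq_right hab
                  rw [this]; omega
                · have : M = s := by rw [hM]; exact max_eq_left hab
                  rw [this]; omega
              have h7 : D * M + 5 * (K * M) = M * L := by rw [← hD]; ring
              have h8 : K * (5 * M) = 5 * (K * M) := by ring
              omega
          calc _ ≤ D * (M + ed (seg xf (i' + 1) n) (seg yf (j' + 1) m)) :=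
                Nat.mul_le_mul_left D h3
            _ = D * M + D * ed (seg xf (i' + 1) n) (seg yf (j' + 1) m) := Nat.mul_add _ _ _
            _ ≤ k := by omega

end Vale.Agent.P315
end

section

namespace Vale.Agent.P315

variable {α β : Type*}

theorem encode_append {L : ℕ} (c : α → Fin L → β) (x y : List α) :
    encode c (x ++ y) = encode c x ++ encode c y := by
  simp [encode]

theorem encode_eq_seg {L : ℕ} (hL : 0 < L) (c' : α → ℕ → β) (c : α → Fin L → β)
    (hcc : ∀ a i, c a i = c' a i) (xf : ℕ → α) (n : ℕ) :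
    encode c (seg xf 0 n) = seg (fun i => c' (xf (i / L)) (i % L)) 0 (n * L) := by
  induction n with
  | zero => simp [seg, encode]
  | succ n ih =>
    rw [seg_split xf (Nat.zero_le n) (Nat.le_succ n), encode_append, ih,
      seg_split _ (Nat.zero_le (n * L)) (Nat.mul_le_mul_right L (Nat.le_succ n))]
    congr 1
    have h1 : seg xf n (n + 1) = [xf n] := by
      rw [seg_cons xf (Nat.lt_succ_self n), seg_self]
    rw [Nat.succ_eq_add_one, h1]
    refine List.ext_getElem ?_ ?_
    · simp [encode, seg, Nat.add_mul]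
    · intro i hi1 hi2
      have hiL : i < L := by simpa [encode] using hi1
      simp only [encode, seg, List.getElem_map, List.getElem_range', one_mul,
        List.flatMap_cons, List.flatMap_nil, List.append_nil, List.getElem_ofFn, hcc]
      have h2 : (n * L + i) / L = n := by
        rw [mul_comm, Nat.mul_add_div hL, Nat.div_eq_of_lt hiL, Nat.add_zero]
      have h3 : (n * L + i) % L = i := by
        rw [mul_comm, Nat.mul_add_mod, Nat.mod_eq_of_lt hiL]
      rw [h2, h3]

theorem exists_seg [Nonempty α] (x : List α) : ∃ xf : ℕ → α, x = seg xf 0 x.length := by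
  obtain ⟨a⟩ := ‹Nonempty α›
  refine ⟨fun i => x.getD i a, ?_⟩
  refine List.ext_getElem ?_ ?_
  · simp [seg]
  · intro i h1 h2
    simp [seg, h1]

theorem gap_ed {L K D : ℕ} (hL : 0 < L) (hD : D + 5 * K = L) (c' : α → ℕ → β)
    (hc : Sep L K c') (c : α → Fin L → β) (hcc : ∀ a i, c a i = c' a i) (x y : List α) :
    D * ed x y ≤ ed (encode c x) (encode c y) := by
  rcases isEmpty_or_nonempty α with hα | hα
  · have h1 : x = [] := by
      cases x with
      | nil => rfl
      | cons a _ => exact (IsEmpty.false a).elim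
    have h2 : y = [] := by
      cases y with
      | nil => rfl
      | cons a _ => exact (IsEmpty.false a).elim
    rw [h1, h2, ed_refl]; simp
  · obtain ⟨xf, hx⟩ := exists_seg x
    obtain ⟨yf, hy⟩ := exists_seg y
    set n := x.length
    set m := y.length
    have h := aln_ed (encode c x) (encode c y)
    rw [hx, hy, encode_eq_seg hL c' c hcc, encode_eq_seg hL c' c hcc] at h ⊢
    obtain ⟨l, hl⟩ := exists_pth h 0 0 (by rw [seg_length]; rfl) (by rw [seg_length]; rfl)
    rw [seg_length, seg_length] at hl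
    simp only [Nat.zero_add, Nat.sub_zero] at hl
    exact gap hL hD hc xf yf n m (l.length + 1) l (Nat.lt_succ_self _) 0 0 0 0 0 _ hL
      (by simp) (by simp) hl

end Vale.Agent.P315
end

section

namespace Vale.Agent.P315

/-- the words coincide along two increasing position sequences -/
theorem chain_eq {L m : ℕ} {γ : Type*} (f g : Fin m → Fin L) (hf : StrictMono f)
    (hg : StrictMono g) (hne : ∀ i, f i ≠ g i) (a b : Fin L → γ)
    (ha : ∀ i, a (f i) = a (g i)) (hb : ∀ i, b (f i) = b (g i))
    (hab : ∀ r, (∀ i, g i ≠ r) → a r = b r) : a = b := by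
  have h1 : ∀ i, f i < g i → a (g i) = b (g i) := by
    intro i
    induction i using WellFoundedLT.induction with
    | _ i ih =>
      intro hi
      rw [← ha, ← hb]
      by_cases h : ∃ j, g j = f i
      · obtain ⟨j, hj⟩ := h
        have hji : j < i := by
          rw [← hj] at hi
          exact hg.lt_iff_lt.mp hi
        have h2 : f j < g j := by rw [hj]; exact hf hji
        rw [← hj]
        exact ih j hji h2
      · push Not at h
        exact hab _ h
  have h2 : ∀ i, g i < f i → a (g i) = b (g i) := by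
    intro i
    induction i using WellFoundedGT.induction with
    | _ i ih =>
      intro hi
      rw [← ha, ← hb]
      by_cases h : ∃ j, g j = f i
      · obtain ⟨j, hj⟩ := h
        have hji : i < j := by
          rw [← hj] at hi
          exact hg.lt_iff_lt.mp hi
        have h2 : g j < f j := by rw [hj]; exact hf hji
        rw [← hj]
        exact ih j hji h2
      · push Not at h
        exact hab _ h
  funext r
  by_cases h : ∃ i, g i = r
  · obtain ⟨i, rfl⟩ := h
    rcases lt_or_gt_of_ne (hne i) with h3 | h3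
    · exact h1 i h3
    · exact h2 i h3
  · push Not at h
    exact hab r h

theorem card_bad_fixed {N L q m : ℕ} (s t : Fin N) (f g : Fin m → Fin L) (hf : StrictMono f)
    (hg : StrictMono g) :
    (Finset.univ.filter fun c : Fin N → Fin L → Fin q =>
      ∀ i, c s (f i) = c t (g i) ∧ ¬ (s = t ∧ f i = g i)).card ≤ q ^ (N * L - m) := by
  classical
  by_cases hm : m = 0
  · subst hm
    have h1 := Finset.card_le_univ (Finset.univ.filter fun c : Fin N → Fin L → Fin q =>
      ∀ i, c s (f i) = c t (g i) ∧ ¬ (s = t ∧ f i = g i))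
    simp only [Fintype.card_fun, Fintype.card_fin] at h1
    rw [← pow_mul, mul_comm L N] at h1
    simpa using h1
  by_cases hne : ∀ i, ¬ (s = t ∧ f i = g i)
  · set T : Finset (Fin N × Fin L) := Finset.univ.image (fun i : Fin m => (t, g i)) with hT
    have hTc : T.card = m := by
      rw [hT, Finset.card_image_of_injective]
      · simp
      · intro i j h
        simp only [Prod.mk.injEq, true_and] at h
        exact hg.injective h
    have hcard : Fintype.card ({p : Fin N × Fin L // p ∈ Tᶜ} → Fin q) = q ^ (N * L - m) := by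
      rw [Fintype.card_fun, Fintype.card_fin, Fintype.card_coe, Finset.card_compl, hTc]
      simp
    rw [← hcard, ← Finset.card_univ]
    refine Finset.card_le_card_of_injOn
      (fun c : Fin N → Fin L → Fin q => fun p : {p : Fin N × Fin L // p ∈ Tᶜ} =>
        c p.1.1 p.1.2) (fun _ _ => Finset.mem_univ _) ?_
    intro c hc c' hc' h
    simp only [Finset.coe_filter, Finset.mem_univ, true_and, Set.mem_ofPred_eq] at hc hc'
    have hoff : ∀ a r, (a, r) ∉ T → c a r = c' a r := by
      intro a r har
      have := congrFun h ⟨(a, r), by simpa using har⟩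
      exact this
    have hnt : ∀ a, a ≠ t → c a = c' a := by
      intro a ha
      funext r
      refine hoff a r ?_
      rw [hT]
      simp only [Finset.mem_image, Finset.mem_univ, true_and, not_exists]
      intro i hi
      exact ha (Prod.mk.injEq _ _ _ _ ▸ hi : t = a ∧ g i = r).1.symm
    have hoff' : ∀ r, (∀ i, g i ≠ r) → c t r = c' t r := by
      intro r hr
      refine hoff t r ?_
      rw [hT]
      simp only [Finset.mem_image, Finset.mem_univ, true_and, not_exists]
      intro i hi
      exact hr i (Prod.mk.injEq _ _ _ _ ▸ hi : t = t ∧ g i = r).2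
    have htt : c t = c' t := by
      by_cases hst : s = t
      · subst hst
        exact chain_eq f g hf hg (fun i hi => hne i ⟨rfl, hi⟩) (c s) (c' s)
          (fun i => (hc i).1) (fun i => (hc' i).1) hoff'
      · funext r
        by_cases hr : ∃ i, g i = r
        · obtain ⟨i, rfl⟩ := hr
          rw [← (hc i).1, ← (hc' i).1, hnt s hst]
        · push Not at hr
          exact hoff' r hr
    funext a
    by_cases ha : a = t
    · rw [ha]; exact htt
    · exact hnt a ha
  · push Not at hne
    obtain ⟨i, hi⟩ := hne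
    have : (Finset.univ.filter fun c : Fin N → Fin L → Fin q =>
      ∀ i, c s (f i) = c t (g i) ∧ ¬ (s = t ∧ f i = g i)) = ∅ := by
      rw [Finset.filter_eq_empty_iff]
      intro c _ h
      exact (h i).2 hi
    rw [this]; simp

/-- extension of a code word by junk -/
def ext {N L q : ℕ} (hL : 0 < L) (c : Fin N → Fin L → Fin q) (a : Fin N) (r : ℕ) : Fin q :=
  if h : r < L then c a ⟨r, h⟩ else c a ⟨0, hL⟩

theorem exists_bad {N L q K : ℕ} (hL : 0 < L) (c : Fin N → Fin L → Fin q)
    (h : ¬ Sep L K (ext hL c)) :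
    ∃ (s t : Fin N) (A B : {A : Finset (Fin L) // A.card = K + 1}),
      ∀ i : Fin (K + 1), c s (A.1.orderEmbOfFin A.2 i) = c t (B.1.orderEmbOfFin B.2 i) ∧
        ¬ (s = t ∧ A.1.orderEmbOfFin A.2 i = B.1.orderEmbOfFin B.2 i) := by
  classical
  unfold Sep at h
  push Not at h
  obtain ⟨s, t, S, hS, hSf, hcard⟩ := h
  obtain ⟨S', hS', hS'c⟩ := Finset.exists_subset_card_eq (s := S) (n := K + 1) (by omega)
  set T : Finset (Fin L × Fin L) := Finset.univ.filter
    (fun u : Fin L × Fin L => (u.1.val, u.2.val) ∈ S') with hT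
  have hTmem : ∀ u ∈ T, (u.1.val, u.2.val) ∈ S' := by
    intro u hu
    rw [hT, Finset.mem_filter] at hu
    exact hu.2
  have hTc : T.card = K + 1 := by
    rw [← hS'c]
    refine Finset.card_bij (fun u _ => (u.1.val, u.2.val)) hTmem ?_ ?_
    · intro u _ v _ huv
      simp only [Prod.mk.injEq] at huv
      exact Prod.ext (Fin.ext huv.1) (Fin.ext huv.2)
    · intro u hu
      have h1 := hSf u (hS' hu)
      refine ⟨(⟨u.1, h1.1⟩, ⟨u.2, h1.2.1⟩), ?_, rfl⟩
      rw [hT, Finset.mem_filter]
      exact ⟨Finset.mem_univ _, hu⟩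
  have hchain : ∀ u ∈ T, ∀ v ∈ T, u ≠ v → (u.1 < v.1 ∧ u.2 < v.2) ∨ (v.1 < u.1 ∧ v.2 < u.2) := by
    intro u hu v hv huv
    have h1 := hS _ (hS' (hTmem u hu)) _ (hS' (hTmem v hv)) (by
      intro h2
      simp only [Prod.mk.injEq] at h2
      exact huv (Prod.ext (Fin.ext h2.1) (Fin.ext h2.2)))
    exact h1
  have hinj1 : Set.InjOn Prod.fst (T : Set (Fin L × Fin L)) := by
    intro u hu v hv huv
    by_contra hne
    rcases hchain u hu v hv hne with h1 | h1
    · exact absurd huv h1.1.ne
    · exact absurd huv h1.1.ne'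
  have hinj2 : Set.InjOn Prod.snd (T : Set (Fin L × Fin L)) := by
    intro u hu v hv huv
    by_contra hne
    rcases hchain u hu v hv hne with h1 | h1
    · exact absurd huv h1.2.ne
    · exact absurd huv h1.2.ne'
  have hAc : (T.image Prod.fst).card = K + 1 := by
    rw [Finset.card_image_of_injOn hinj1, hTc]
  have hBc : (T.image Prod.snd).card = K + 1 := by
    rw [Finset.card_image_of_injOn hinj2, hTc]
  have hex : ∀ i : Fin (K + 1), ∃ v, ((T.image Prod.fst).orderEmbOfFin hAc i, v) ∈ T := by
    intro i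
    have h1 := Finset.orderEmbOfFin_mem (T.image Prod.fst) hAc i
    obtain ⟨u, hu, hu1⟩ := Finset.mem_image.mp h1
    exact ⟨u.2, by rw [← hu1]; exact hu⟩
  choose g hg using hex
  have hgm : StrictMono g := by
    intro i j hij
    have h1 : (T.image Prod.fst).orderEmbOfFin hAc i < (T.image Prod.fst).orderEmbOfFin hAc j :=
      ((T.image Prod.fst).orderEmbOfFin hAc).strictMono hij
    rcases hchain _ (hg i) _ (hg j) (by
      intro h2
      exact h1.ne (congrArg Prod.fst h2)) with h2 | h2
    · exact h2.2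
    · exact absurd h2.1 (not_lt.mpr h1.le)
  have hgB : ∀ i, g i ∈ T.image Prod.snd := fun i =>
    Finset.mem_image.mpr ⟨_, hg i, rfl⟩
  have hgeq := Finset.orderEmbOfFin_unique hBc hgB hgm
  refine ⟨s, t, ⟨T.image Prod.fst, hAc⟩, ⟨T.image Prod.snd, hBc⟩, ?_⟩
  intro i
  have h1 := hg i
  have h2 : g i = (T.image Prod.snd).orderEmbOfFin hBc i := congrFun hgeq i
  rw [h2] at h1
  have h3 := hSf _ (hS' (hTmem _ h1))
  simp only at h3
  have h4 := h3.2.2.1
  simp only [ext, Fin.is_lt, dite_true, Fin.eta] at h4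
  refine ⟨h4, ?_⟩
  rintro ⟨h5, h6⟩
  exact h3.2.2.2 h5 (congrArg Fin.val h6)

theorem card_not_sep {N L q K : ℕ} (hL : 0 < L) :
    ({c : Fin N → Fin L → Fin q | ¬ Sep L K (ext hL c)} : Set _).ncard ≤
      N ^ 2 * (L.choose (K + 1)) ^ 2 * q ^ (N * L - (K + 1)) := by
  classical
  set ι := Fin N × Fin N × {A : Finset (Fin L) // A.card = K + 1} ×
    {A : Finset (Fin L) // A.card = K + 1} with hι
  set F : ι → Finset (Fin N → Fin L → Fin q) := fun j =>
    Finset.univ.filter fun c : Fin N → Fin L → Fin q =>
      ∀ i, c j.1 (j.2.2.1.1.orderEmbOfFin j.2.2.1.2 i) =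
        c j.2.1 (j.2.2.2.1.orderEmbOfFin j.2.2.2.2 i) ∧
        ¬ (j.1 = j.2.1 ∧ j.2.2.1.1.orderEmbOfFin j.2.2.1.2 i =
          j.2.2.2.1.orderEmbOfFin j.2.2.2.2 i) with hF
  have h1 : ({c : Fin N → Fin L → Fin q | ¬ Sep L K (ext hL c)} : Set _) ⊆
      ((Finset.univ.biUnion F : Finset (Fin N → Fin L → Fin q)) : Set _) := by
    intro c hc
    obtain ⟨s, t, A, B, h⟩ := exists_bad hL c hc
    simp only [Finset.coe_biUnion, Set.mem_iUnion]
    refine ⟨(s, t, A, B), Finset.mem_coe.mpr (Finset.mem_univ _), ?_⟩
    rw [hF]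
    simp only [Finset.coe_filter, Finset.mem_univ, true_and, Set.mem_ofPred_eq]
    exact h
  have h2 := Set.ncard_le_ncard h1 (Finset.finite_toSet _)
  rw [Set.ncard_coe_finset] at h2
  have h3 := Finset.card_biUnion_le_card_mul Finset.univ F (q ^ (N * L - (K + 1))) (by
    intro j _
    exact card_bad_fixed _ _ _ _ (OrderEmbedding.strictMono _) (OrderEmbedding.strictMono _))
  have h4 : (Finset.univ : Finset ι).card = N ^ 2 * (L.choose (K + 1)) ^ 2 := by
    rw [Finset.card_univ]
    change Fintype.card (Fin N × Fin N × {A : Finset (Fin L) // A.card = K + 1} ×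
      {A : Finset (Fin L) // A.card = K + 1}) = _
    simp only [Fintype.card_prod, Fintype.card_fin, Fintype.card_finset_len]
    ring
  rw [h4] at h3
  exact h2.trans h3

end Vale.Agent.P315
end

section

namespace Vale.Agent.P315

theorem numeric_bound {N q L K : ℕ} {ε : ℝ} (hε : 0 < ε) (hN : 2 ≤ N)
    (hq : 503 / ε ^ 2 ≤ q) (hL : 15 * Real.log N / ε ≤ L) (hK : ε * L / 5 < K + 1) :
    (N : ℝ) ^ 3 * (L.choose (K + 1) : ℝ) ^ 2 ≤ (q : ℝ) ^ (K + 1) := by
  have hm0 : (0 : ℝ) < (K : ℝ) + 1 := by positivity
  have hNr : (0 : ℝ) < N := by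
    have : (2 : ℝ) ≤ N := by exact_mod_cast hN
    linarith
  have h1 : 3 * Real.log N ≤ (K + 1 : ℕ) := by
    have h2 : 3 * Real.log N ≤ ε * L / 5 := by
      rw [div_le_iff₀ hε] at hL
      nlinarith
    push_cast
    linarith
  have hN3 : (N : ℝ) ^ 3 ≤ Real.exp 1 ^ (K + 1) := by
    have h2 : (N : ℝ) ^ 3 = Real.exp (3 * Real.log N) := by
      rw [mul_comm, Real.exp_mul, Real.exp_log hNr]
      norm_cast
    rw [h2, Real.exp_one_pow]
    exact Real.exp_le_exp.mpr h1
  have hLm : (L : ℝ) ≤ 5 / ε * ((K + 1 : ℕ) : ℝ) := by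
    push_cast
    rw [div_mul_eq_mul_div, le_div_iff₀ hε]
    linarith
  have hC : (L.choose (K + 1) : ℝ) ≤ (5 / ε * Real.exp 1) ^ (K + 1) := by
    have h2 := Nat.choose_le_pow_div (α := ℝ) (K + 1) L
    have h3 : ((L : ℝ)) ^ (K + 1) ≤ (5 / ε * ((K + 1 : ℕ) : ℝ)) ^ (K + 1) :=
      pow_le_pow_left₀ (Nat.cast_nonneg _) hLm _
    have h4 := Real.pow_div_factorial_le_exp ((K + 1 : ℕ) : ℝ) (Nat.cast_nonneg _) (K + 1)
    rw [← Real.exp_one_pow] at h4
    have hfac : (0 : ℝ) < ((K + 1).factorial : ℝ) := by
      exact_mod_cast Nat.factorial_pos _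
    calc (L.choose (K + 1) : ℝ) ≤ (L : ℝ) ^ (K + 1) / ((K + 1).factorial : ℝ) := h2
      _ ≤ (5 / ε * ((K + 1 : ℕ) : ℝ)) ^ (K + 1) / ((K + 1).factorial : ℝ) :=
          div_le_div_of_nonneg_right h3 hfac.le
      _ = (5 / ε) ^ (K + 1) *
          (((K + 1 : ℕ) : ℝ) ^ (K + 1) / ((K + 1).factorial : ℝ)) := by
          rw [mul_pow, mul_div_assoc]
      _ ≤ (5 / ε) ^ (K + 1) * Real.exp 1 ^ (K + 1) :=
          mul_le_mul_of_nonneg_left h4 (by positivity)
      _ = _ := (mul_pow _ _ _).symm
  have he : Real.exp 1 < 2.7182818286 := Real.exp_one_lt_d9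
  have he0 : 0 < Real.exp 1 := Real.exp_pos 1
  have hbase : Real.exp 1 * (5 / ε * Real.exp 1) ^ 2 ≤ q := by
    refine le_trans ?_ hq
    have h5 : Real.exp 1 * (5 / ε * Real.exp 1) ^ 2 = (25 * Real.exp 1 ^ 3) / ε ^ 2 := by
      field_simp
      ring
    rw [h5]
    refine div_le_div_of_nonneg_right ?_ (by positivity)
    have h6 : Real.exp 1 ^ 3 ≤ 2.7182818286 ^ 3 := pow_le_pow_left₀ he0.le he.le 3
    have h7 : (25 : ℝ) * 2.7182818286 ^ 3 ≤ 503 := by norm_num
    linarith
  calc (N : ℝ) ^ 3 * (L.choose (K + 1) : ℝ) ^ 2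
      ≤ Real.exp 1 ^ (K + 1) * ((5 / ε * Real.exp 1) ^ (K + 1)) ^ 2 := by
        refine mul_le_mul hN3 ?_ (by positivity) (by positivity)
        exact pow_le_pow_left₀ (Nat.cast_nonneg _) hC 2
    _ = (Real.exp 1 * (5 / ε * Real.exp 1) ^ 2) ^ (K + 1) := by
        generalize 5 / ε * Real.exp 1 = w
        rw [mul_pow, ← pow_mul, ← pow_mul, mul_comm (K + 1) 2]
    _ ≤ (q : ℝ) ^ (K + 1) := pow_le_pow_left₀ (by positivity) hbase _

theorem main_alpha (N q L : ℕ) (ε : ℝ) (hε : 0 < ε) (hε1 : ε < 1) (hN : 2 ≤ N)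
    (hq : 503 / ε ^ 2 ≤ q) (hL : 15 * Real.log N / ε ≤ L) :
    N * {c : Fin N → Fin L → Fin q | ¬ ∀ x y : List (Fin N),
        (1 - ε) * (L * ed x y) ≤ ed (encode c x) (encode c y) ∧
        ed (encode c x) (encode c y) ≤ L * ed x y}.ncard ≤
      Fintype.card (Fin N → Fin L → Fin q) := by
  classical
  have hlog : 0 < Real.log N := Real.log_pos (by exact_mod_cast (by omega : 1 < N))
  have hLr : (0 : ℝ) < L := lt_of_lt_of_le (by positivity) hL
  have hL0 : 0 < L := by exact_mod_cast hLr
  set K := ⌊ε * L / 5⌋₊ with hKdef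
  have hK1 : (K : ℝ) ≤ ε * L / 5 := Nat.floor_le (by positivity)
  have hK2 : ε * L / 5 < K + 1 := Nat.lt_floor_add_one _
  have h5K : 5 * K ≤ L := by
    have : (5 * K : ℝ) ≤ L := by nlinarith
    exact_mod_cast this
  have hsub : {c : Fin N → Fin L → Fin q | ¬ ∀ x y : List (Fin N),
        (1 - ε) * (L * ed x y) ≤ ed (encode c x) (encode c y) ∧
        ed (encode c x) (encode c y) ≤ L * ed x y} ⊆
      {c : Fin N → Fin L → Fin q | ¬ Sep L K (ext hL0 c)} := by
    intro c hc hsep
    refine hc ?_
    intro x y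
    refine ⟨?_, ed_encode_le c x y⟩
    have h1 := gap_ed hL0 (D := L - 5 * K) (by omega) (ext hL0 c) hsep c
      (by intro a i; simp [ext]) x y
    have h2 : ((L - 5 * K : ℕ) : ℝ) * (ed x y : ℝ) ≤ (ed (encode c x) (encode c y) : ℝ) := by
      exact_mod_cast h1
    rw [Nat.cast_sub h5K] at h2
    push_cast at h2
    have h3 : (1 - ε) * L ≤ (L : ℝ) - 5 * K := by linarith
    have h4 : (0 : ℝ) ≤ (ed x y : ℝ) := Nat.cast_nonneg _
    calc (1 - ε) * (L * (ed x y : ℝ)) = ((1 - ε) * L) * (ed x y : ℝ) := by ring
      _ ≤ ((L : ℝ) - 5 * K) * (ed x y : ℝ) := mul_le_mul_of_nonneg_right h3 h4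
      _ ≤ _ := h2
  have hnc := (Set.ncard_le_ncard hsub (Set.toFinite _)).trans (card_not_sep (K := K) hL0)
  have hcard : Fintype.card (Fin N → Fin L → Fin q) = q ^ (N * L) := by
    simp only [Fintype.card_fun, Fintype.card_fin]
    rw [← pow_mul, mul_comm L N]
  rw [hcard]
  rcases Nat.lt_or_ge L (K + 1) with hlt | hge
  · rw [Nat.choose_eq_zero_of_lt hlt] at hnc
    have h0 : {c : Fin N → Fin L → Fin q | ¬ ∀ x y : List (Fin N),
        (1 - ε) * (L * ed x y) ≤ ed (encode c x) (encode c y) ∧
        ed (encode c x) (encode c y) ≤ L * ed x y}.ncard = 0 := by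
      simpa using hnc
    rw [h0]; simp
  · have hnum := numeric_bound hε hN hq hL hK2
    have hnum' : N ^ 3 * (L.choose (K + 1)) ^ 2 ≤ q ^ (K + 1) := by exact_mod_cast hnum
    have hNL : K + 1 ≤ N * L := hge.trans (Nat.le_mul_of_pos_left L (by omega))
    calc _ ≤ N * (N ^ 2 * (L.choose (K + 1)) ^ 2 * q ^ (N * L - (K + 1))) :=
          Nat.mul_le_mul_left N hnc
      _ = (N ^ 3 * (L.choose (K + 1)) ^ 2) * q ^ (N * L - (K + 1)) := by ring
      _ ≤ q ^ (K + 1) * q ^ (N * L - (K + 1)) := Nat.mul_le_mul_right _ hnum'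
      _ = q ^ (N * L) := by rw [← pow_add]; congr 1; omega

end Vale.Agent.P315
end
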